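import Mathlib

/-!
# P137: shared definitions

The centered Hardy-Littlewood maximal function on Euclidean space, with values in `[0, ∞]`, and
the radial variation of a profile.
-/

namespace Vale.Agent.Lib.P137

open MeasureTheory

/-- Euclidean space of dimension `d`. -/
abbrev Sp (d : ℕ) : Type := EuclideanSpace ℝ (Fin d)

/-- The centered Hardy-Littlewood maximal function of `f` at `x`: the supremum over all radii
`r > 0` of the average of `|f|` over the open ball `B(x, r)` (Lebesgue measure), as an extended
nonnegative real. -/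
noncomputable def maximalFn {d : ℕ} (f : Sp d → ℝ) (x : Sp d) : ENNReal :=
  ⨆ r : {r : ℝ // 0 < r},
    (∫⁻ y in Metric.ball x r, ENNReal.ofReal |f y|) / volume (Metric.ball x r)

/-- The radial variation of a profile `G` in dimension `d`: the supremum, over all finite
increasing sequences `0 < ρ 0 < ρ 1 < ... < ρ n`, of the sums
`∑ j < n, (ρ j) ^ (d - 1) * (G (ρ j) - G (ρ (j + 1)))`. -/
noncomputable def radialVar (d : ℕ) (G : ℝ → ENNReal) : ENNReal :=
  ⨆ (n : ℕ) (ρ : Fin (n + 1) → ℝ) (_ : StrictMono ρ ∧ 0 < ρ 0),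
    ∑ j : Fin n, ENNReal.ofReal (ρ j.castSucc ^ (d - 1)) * (G (ρ j.castSucc) - G (ρ j.succ))

end Vale.Agent.Lib.P137
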