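import Mathlib
import Vale.Agent.Lib.P137.Defs

/-!
# P137: divergence of a vector field and the total variation of a function on Euclidean space
-/

namespace Vale.Agent.Lib.P137

open MeasureTheory

/-- The divergence of a vector field `φ` on Euclidean space at `x`: the sum over the coordinates
`i` of the `i`-th coordinate of the derivative of `φ` at `x` in the `i`-th coordinate direction. -/
noncomputable def divergence {d : ℕ} (φ : Sp d → Sp d) (x : Sp d) : ℝ :=
  ∑ i : Fin d, (fderiv ℝ φ x (EuclideanSpace.single i 1)) i

/-- The total variation of `u` (the total mass of its distributional gradient, in the form of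
De Giorgi): the supremum of `∫ u * div φ` over all continuously differentiable vector fields `φ`
with compact support and `|φ| ≤ 1` everywhere. -/
noncomputable def totalVar {d : ℕ} (u : Sp d → ℝ) : ENNReal :=
  ⨆ (φ : Sp d → Sp d) (_ : ContDiff ℝ 1 φ ∧ HasCompactSupport φ ∧ ∀ x, ‖φ x‖ ≤ 1),
    ENNReal.ofReal (∫ x, u x * divergence φ x)

end Vale.Agent.Lib.P137
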